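import Vale.Agent.P113.Main

/-! Halting detection by a particle trajectory of a forced Navier-Stokes flow from rest on the
flat torus: a positive answer, for every viscosity. -/

open Set Vale.Agent.P113

namespace Vale.Agent.Results.P113.AHalting

theorem result :
    ∃ (a lo hi : Fin 3 → ℚ) (C : Input → Fin 3 → List Term), (∀ i, lo i < hi i) ∧
      ∀ ν : ℝ, 0 < ν → IsCompiler ν C ∧ ∀ (M : Machine) (w : List (Fin M.nS)),
        ∃ (f u : Fin 3 → ℝ → T3 → ℝ) (p : ℝ → T3 → ℝ) (X : ℝ → T3),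
          IsForce ν (C (M.input w)) f ∧ (∀ i, IsSmooth (f i)) ∧
          (∀ i, IsSmooth (u i)) ∧ IsSmooth p ∧ (∀ T, 0 < T → IsClassical ν f T u p) ∧
          (∀ T, 0 < T → ∀ v q, IsClassical ν f T v q →
            ∀ t ∈ Icc 0 T, ∀ x, (∀ i, v i t x = u i t x) ∧ q t x = p t x) ∧
          IsTrajectory u (proj fun i => a i) X ∧
          (∀ X', IsTrajectory u (proj fun i => a i) X' → ∀ t, 0 ≤ t → X' t = X t) ∧
          ((∃ t, 0 ≤ t ∧ X t ∈ proj '' univ.pi fun i => Ioo (lo i : ℝ) (hi i)) ↔ M.Halts w) :=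
  Vale.Agent.P113.main

end Vale.Agent.Results.P113.AHalting
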